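import Vale.Agent.Lib.P302M.Pack

namespace Vale.Agent.P302

theorem lbsum (T : Multiset ℝ) (w : ℝ → ℝ) (r : ℝ) (h : ∀ x ∈ T, r ≤ w x) :
    (T.card : ℝ) * r ≤ (T.map w).sum := by
  have h1 := Multiset.card_nsmul_le_sum (s := T.map w) (a := r) (by
    intro y hy
    obtain ⟨x, hx, rfl⟩ := Multiset.mem_map.1 hy
    exact h x hx)
  rw [Multiset.card_map, nsmul_eq_mul] at h1
  exact h1

def DualHyp (L S : Multiset ℝ) (k : ℝ) : Prop :=
  ∀ p u : ℝ → ℝ, (∀ x, 0 ≤ p x) → (∀ x, p x ≤ 1) → (∀ x, 0 ≤ u x) → (∀ x, u x ≤ 1 / 2) →
    (∀ x ∈ L, ∀ y ∈ S, x + y ≤ 1 → p x + u y ≤ 1) →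
    (∀ x ∈ S, ∀ y ∈ S, ∀ z ∈ S, x ≤ y → y ≤ z → x + y + z ≤ 1 → u x + u y + u z ≤ 1) →
    (L.map p).sum + (S.map u).sum ≤ k

/-- the threshold weight -/
theorem D_thr {L S : Multiset ℝ} {k : ℝ} (D : DualHyp L S k) (P u0 u1 t : ℝ)
    (hP : 0 ≤ P) (hP1 : P ≤ 1) (h0 : 0 ≤ u0) (h01 : u0 ≤ u1) (h1 : u1 ≤ 1 / 2)
    (hLS : ∀ x ∈ L, ∀ y ∈ S, x + y ≤ 1 → (t ≤ y → P + u1 ≤ 1) ∧ (y < t → P + u0 ≤ 1))
    (h2 : 2 * u0 + u1 ≤ 1)
    (h3 : u0 + 2 * u1 ≤ 1 ∨ ∀ x ∈ S, t ≤ t → 1 < x + t + t)
    (h4 : 3 * u1 ≤ 1 ∨ 1 < t + t + t) (T S' : Multiset ℝ) (hS : S = T + S') (hT : ∀ x ∈ T, t ≤ x) :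
    (L.card : ℝ) * P + (T.card : ℝ) * u1 + (S'.card : ℝ) * u0 ≤ k := by
  have h := D (fun _ => P) (fun x => if t ≤ x then u1 else u0) (fun _ => hP) (fun _ => hP1)
    (fun x => by split_ifs <;> linarith) (fun x => by split_ifs <;> linarith)
    (by
      intro x hx y hy hxy
      obtain ⟨ha, hb⟩ := hLS x hx y hy hxy
      split_ifs with hty
      · exact ha hty
      · exact hb (not_le.1 hty))
    (by
      intro x hx y hy z hz hxy hyz hs
      by_cases htx : t ≤ x
      · have hty : t ≤ y := by linarith
        have htz : t ≤ z := by linarith
        rw [if_pos htx, if_pos hty, if_pos htz]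
        rcases h4 with h4 | h4
        · linarith
        · exfalso; linarith
      · by_cases hty : t ≤ y
        · have htz : t ≤ z := by linarith
          rw [if_neg htx, if_pos hty, if_pos htz]
          rcases h3 with h3 | h3
          · linarith
          · exfalso
            have := h3 x hx le_rfl
            linarith
        · rw [if_neg htx, if_neg hty]
          split_ifs <;> linarith)
  have l1 := lbsum L (fun _ => P) P (fun _ _ => le_rfl)
  have l2 := lbsum T (fun x => if t ≤ x then u1 else u0) u1 (by
    intro x hx
    rw [if_pos (hT x hx)])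
  have l3 := lbsum S' (fun x => if t ≤ x then u1 else u0) u0 (by
    intro x hx
    split_ifs <;> linarith)
  rw [hS, Multiset.map_add, Multiset.sum_add] at h
  linarith

theorem core4B (L S : Multiset ℝ) (hL : ∀ x ∈ L, 1 / 2 < x ∧ x ≤ 1)
    (hS : ∀ x ∈ S, 1 / 4 < x ∧ x ≤ 1 / 2) (D : DualHyp L S 4) : Packs (L + S) 5 := by
  classical
  have hA1 : (L.card : ℝ) ≤ 4 := by
    have h := D_thr D 1 0 0 0 (by norm_num) (by norm_num) (by norm_num) (by norm_num) (by norm_num)
      (fun x hx y hy hxy => ⟨fun _ => by norm_num, fun _ => by norm_num⟩) (by norm_num)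
      (Or.inl (by norm_num)) (Or.inl (by norm_num)) 0 S (by simp) (by simp)
    simpa using h
  have hA2 : 2 * (L.card : ℝ) + S.card ≤ 12 := by
    have h := D_thr D (2 / 3) (1 / 3) (1 / 3) 0 (by norm_num) (by norm_num) (by norm_num)
      (by norm_num) (by norm_num)
      (fun x hx y hy hxy => ⟨fun _ => by norm_num, fun _ => by norm_num⟩) (by norm_num)
      (Or.inl (by norm_num)) (Or.inl (by norm_num)) 0 S (by simp) (by simp)
    simp only [Multiset.card_zero, Nat.cast_zero] at h
    linarith
  have hA1' : L.card ≤ 4 := by exact_mod_cast hA1
  have hA2' : 2 * L.card + S.card ≤ 12 := by exact_mod_cast hA2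
  have hL1 : ∀ x ∈ L, x ≤ 1 := fun x hx => (hL x hx).2
  have hS2 : ∀ x ∈ S, x ≤ 1 / 2 := fun x hx => (hS x hx).2
  by_cases hb : S.card ≤ 2 * (5 - L.card)
  · have := packs_add (packs_single L hL1) (packs_pairs (5 - L.card) S hS2 hb)
    rwa [show L.card + (5 - L.card) = 5 by omega] at this
  -- at least `11 - 2a` others
  have hS4 : 3 ≤ S.card := by omega
  obtain ⟨x1, S1, hS1, hm1⟩ := take_min S (by omega)
  have hc1 : S.card = S1.card + 1 := by rw [hS1]; simp
  obtain ⟨x2, S2', hS2', hm2⟩ := take_min S1 (by omega)
  have hc2 : S1.card = S2'.card + 1 := by rw [hS2']; simp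
  obtain ⟨x3, S3, hS3, hm3⟩ := take_min S2' (by omega)
  have hc3 : S2'.card = S3.card + 1 := by rw [hS3]; simp
  have i12 : x1 ≤ x2 := hm1 x2 (by rw [hS2']; simp)
  have i23 : x2 ≤ x3 := hm2 x3 (by rw [hS3]; simp)
  have hSS : S = x1 ::ₘ x2 ::ₘ x3 ::ₘ S3 := by rw [hS1, hS2', hS3]
  have hSm1 : ∀ y ∈ S, x1 ≤ y := by
    intro y hy
    rw [hSS] at hy
    simp only [Multiset.mem_cons] at hy
    rcases hy with h | h | h | h
    · exact h.ge
    · rw [h]; exact i12
    · rw [h]; linarith
    · have := hm3 y h; linarith
  have b1 := hS x1 (by rw [hSS]; simp)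
  have b2 := hS x2 (by rw [hSS]; simp)
  have b3 := hS x3 (by rw [hSS]; simp)
  -- the first big and the first other fit together
  have hB1 : ∀ B1 L1, L = B1 ::ₘ L1 → (∀ y ∈ L1, B1 ≤ y) → 12 ≤ 2 * L.card + S.card ∨ 2 ≤ L.card →
      B1 + x1 ≤ 1 := by
    intro B1 L1 hL1e hBm hcase
    by_contra hcon
    push Not at hcon
    have h := D_thr D 1 (1 / 3) (1 / 3) 0 (by norm_num) (by norm_num) (by norm_num)
      (by norm_num) (by norm_num)
      (fun x hx y hy hxy => by
        exfalso
        have h1 := hSm1 y hy
        have h2 : B1 ≤ x := by
          rw [hL1e] at hx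
          rcases Multiset.mem_cons.1 hx with h | h
          · exact h.ge
          · exact hBm x h
        linarith) (by norm_num)
      (Or.inl (by norm_num)) (Or.inl (by norm_num)) 0 S (by simp) (by simp)
    simp only [Multiset.card_zero, Nat.cast_zero] at h
    have h1 : 1 ≤ L.card := by rw [hL1e]; simp
    have h' : 3 * (L.card : ℝ) + S.card ≤ 12 := by linarith
    have h'' : 3 * L.card + S.card ≤ 12 := by exact_mod_cast h'
    omega
  have hbig3 : ∀ B1 L1, L = B1 ::ₘ L1 → (∀ y ∈ L1, B1 ≤ y) → ∀ x ∈ L, B1 ≤ x := by
    intro B1 L1 hL1e hBm x hx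
    rw [hL1e] at hx
    rcases Multiset.mem_cons.1 hx with h | h
    · exact h.ge
    · exact hBm x h
  rcases Nat.lt_or_ge L.card 2 with hL2 | hL2
  · rcases Nat.lt_or_ge L.card 1 with hL0 | hL0
    · -- no big item
      have hL00 : L = 0 := Multiset.card_eq_zero.1 (by omega)
      subst hL00
      simp only [Multiset.card_zero] at hA2' hb
      have hx3 : x3 ≤ 1 / 3 := by
        by_contra hcon
        push Not at hcon
        have h := D_thr D 1 0 (1 / 2) x3 (by norm_num) (by norm_num) (by norm_num)
          (by norm_num) (by norm_num) (fun x hx => absurd hx (Multiset.notMem_zero x)) (by norm_num)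
          (Or.inl (by norm_num)) (Or.inr (by linarith)) (x3 ::ₘ S3) {x1, x2}
          (by rw [hSS]; simp only [← Multiset.singleton_add, Multiset.insert_eq_cons]; abel)
          (by
            intro x hx
            rcases Multiset.mem_cons.1 hx with h | h
            · exact h.ge
            · exact hm3 x h)
        simp only [Multiset.card_cons, Multiset.card_zero] at h
        have h5 : (9 : ℝ) ≤ (S3.card : ℝ) + 1 := by
          have : 9 ≤ S3.card + 1 := by omega
          exact_mod_cast this
        push_cast at h
        linarith
      by_cases hb11 : S.card = 11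
      · have q1 : Packs {x1, x2, x3} 1 := packs_one (by simp; linarith)
        have q2 : Packs S3 4 := packs_pairs 4 S3
          (fun x hx => hS2 x (by rw [hSS]; simp [hx])) (by omega)
        have q3 := packs_add q1 q2
        convert q3 using 1
        rw [hSS, zero_add]
        simp only [← Multiset.singleton_add, Multiset.insert_eq_cons]; abel
      · obtain ⟨x4, S4, hS4e, hm4⟩ := take_min S3 (by omega)
        have hc4 : S3.card = S4.card + 1 := by rw [hS4e]; simp
        obtain ⟨x5, S5, hS5e, hm5⟩ := take_min S4 (by omega)
        have hc5 : S4.card = S5.card + 1 := by rw [hS5e]; simp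
        obtain ⟨x6, S6, hS6e, hm6⟩ := take_min S5 (by omega)
        have hc6 : S5.card = S6.card + 1 := by rw [hS6e]; simp
        have hS6 : S = x1 ::ₘ x2 ::ₘ x3 ::ₘ x4 ::ₘ x5 ::ₘ x6 ::ₘ S6 := by
          rw [hSS, hS4e, hS5e, hS6e]
        have i34 : x3 ≤ x4 := hm3 x4 (by rw [hS4e]; simp)
        have i45 : x4 ≤ x5 := hm4 x5 (by rw [hS5e]; simp)
        have i56 : x5 ≤ x6 := hm5 x6 (by rw [hS6e]; simp)
        have hx4 : x4 ≤ 1 / 3 := by
          by_contra hcon
          push Not at hcon
          have h := D_thr D 1 0 (1 / 2) x4 (by norm_num) (by norm_num) (by norm_num)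
            (by norm_num) (by norm_num) (fun x hx => absurd hx (Multiset.notMem_zero x))
            (by norm_num)
            (Or.inl (by norm_num)) (Or.inr (by linarith)) (x4 ::ₘ S4) {x1, x2, x3}
            (by rw [hSS, hS4e]; simp only [← Multiset.singleton_add, Multiset.insert_eq_cons]; abel)
            (by
              intro x hx
              rcases Multiset.mem_cons.1 hx with h | h
              · exact h.ge
              · exact hm4 x h)
          simp only [Multiset.card_cons, Multiset.card_zero] at h
          have h5 : (9 : ℝ) ≤ (S4.card : ℝ) + 1 := by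
            have : 9 ≤ S4.card + 1 := by omega
            exact_mod_cast this
          push_cast at h
          linarith
        have hx6 : x1 + x5 + x6 ≤ 1 := by
          by_contra hcon
          push Not at hcon
          have h := D_thr D 1 (1 / 4) (1 / 2) x6 (by norm_num) (by norm_num) (by norm_num)
            (by norm_num) (by norm_num) (fun x hx => absurd hx (Multiset.notMem_zero x))
            (by norm_num)
            (Or.inr (by
              intro x hx _
              have := hSm1 x hx
              linarith)) (Or.inr (by linarith)) (x6 ::ₘ S6) {x1, x2, x3, x4, x5}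
            (by rw [hS6]; simp only [← Multiset.singleton_add, Multiset.insert_eq_cons]; abel)
            (by
              intro x hx
              rcases Multiset.mem_cons.1 hx with h | h
              · exact h.ge
              · exact hm6 x h)
          simp only [Multiset.card_cons, Multiset.card_zero, Multiset.insert_eq_cons,
            Multiset.card_singleton] at h
          have h5 : (7 : ℝ) ≤ (S6.card : ℝ) + 1 := by
            have : 7 ≤ S6.card + 1 := by omega
            exact_mod_cast this
          push_cast at h
          linarith
        have q1 : Packs {x1, x5, x6} 1 := packs_one (by simp; linarith)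
        have q2 : Packs {x2, x3, x4} 1 := packs_one (by simp; linarith)
        have q3 : Packs S6 3 := packs_pairs 3 S6
          (fun x hx => hS2 x (by rw [hS6]; simp [hx])) (by omega)
        have q4 := packs_add (packs_add q1 q2) q3
        convert q4 using 1
        rw [hS6, zero_add]
        simp only [← Multiset.singleton_add, Multiset.insert_eq_cons]; abel
    · -- one big item
      have hLc : L.card = 1 := by omega
      obtain ⟨B1, hB⟩ := Multiset.card_eq_one.1 hLc
      have hBL : ∀ x ∈ L, x = B1 := by
        intro x hx; rw [hB] at hx; exact Multiset.mem_singleton.1 hx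
      have bB := hL B1 (by rw [hB]; simp)
      have hLr : (L.card : ℝ) = 1 := by rw [hLc]; norm_num
      by_cases hb9 : S.card = 9
      · by_cases hf : B1 + x1 ≤ 1
        · have q1 : Packs {B1, x1} 1 := packs_one (by simp; linarith)
          have q2 : Packs S1 4 := packs_pairs 4 S1
            (fun x hx => hS2 x (by rw [hS1]; simp [hx])) (by omega)
          have q3 := packs_add q1 q2
          convert q3 using 1
          rw [hS1, hB]
          simp only [← Multiset.singleton_add, Multiset.insert_eq_cons]; abel
        · push Not at hf
          have hx3 : x3 ≤ 1 / 3 := by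
            by_contra hcon
            push Not at hcon
            have h := D_thr D 1 0 (1 / 2) x3 (by norm_num) (by norm_num) (by norm_num)
              (by norm_num) (by norm_num)
              (fun x hx y hy hxy => by
                exfalso
                have h1 := hSm1 y hy
                rw [hBL x hx] at hxy
                linarith) (by norm_num)
              (Or.inl (by norm_num)) (Or.inr (by linarith)) (x3 ::ₘ S3) {x1, x2}
              (by rw [hSS]; simp only [← Multiset.singleton_add, Multiset.insert_eq_cons]; abel)
              (by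
                intro x hx
                rcases Multiset.mem_cons.1 hx with h | h
                · exact h.ge
                · exact hm3 x h)
            simp only [Multiset.card_cons] at h
            have h5 : (7 : ℝ) ≤ (S3.card : ℝ) + 1 := by
              have : 7 ≤ S3.card + 1 := by omega
              exact_mod_cast this
            push_cast at h
            rw [hLr] at h
            linarith
          have q0 : Packs {B1} 1 := packs_one (by simp; linarith)
          have q1 : Packs {x1, x2, x3} 1 := packs_one (by simp; linarith)
          have q2 : Packs S3 3 := packs_pairs 3 S3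
            (fun x hx => hS2 x (by rw [hSS]; simp [hx])) (by omega)
          have q3 := packs_add (packs_add q0 q1) q2
          convert q3 using 1
          rw [hSS, hB]
          simp only [← Multiset.singleton_add, Multiset.insert_eq_cons]; abel
      · have hf : B1 + x1 ≤ 1 := hB1 B1 0 (by rw [hB]; rfl) (by simp) (Or.inl (by omega))
        obtain ⟨x4, S4, hS4e, hm4⟩ := take_min S3 (by omega)
        have hc4 : S3.card = S4.card + 1 := by rw [hS4e]; simp
        have hS44 : S = x1 ::ₘ x2 ::ₘ x3 ::ₘ x4 ::ₘ S4 := by rw [hSS, hS4e]
        have i34 : x3 ≤ x4 := hm3 x4 (by rw [hS4e]; simp)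
        have q3 : Packs S4 3 := packs_pairs 3 S4
            (fun x hx => hS2 x (by rw [hS44]; simp [hx])) (by omega)
        by_cases hx4 : x4 ≤ 1 / 3
        · have q1 : Packs {B1, x1} 1 := packs_one (by simp; linarith)
          have q2 : Packs {x2, x3, x4} 1 := packs_one (by simp; linarith)
          have q4 := packs_add (packs_add q1 q2) q3
          convert q4 using 1
          rw [hS44, hB]
          simp only [← Multiset.singleton_add, Multiset.insert_eq_cons]; abel
        · push Not at hx4
          have hf4 : B1 + x4 ≤ 1 := by
            by_contra hcon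
            push Not at hcon
            have h := D_thr D 1 0 (1 / 2) x4 (by norm_num) (by norm_num) (by norm_num)
              (by norm_num) (by norm_num)
              (fun x hx y hy hxy => by
                rw [hBL x hx] at hxy
                refine ⟨fun hty => ?_, fun _ => by norm_num⟩
                exfalso
                linarith) (by norm_num)
              (Or.inl (by norm_num)) (Or.inr (by linarith)) (x4 ::ₘ S4) {x1, x2, x3}
              (by rw [hS44]; simp only [← Multiset.singleton_add, Multiset.insert_eq_cons]; abel)
              (by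
                intro x hx
                rcases Multiset.mem_cons.1 hx with h | h
                · exact h.ge
                · exact hm4 x h)
            simp only [Multiset.card_cons] at h
            have h5 : (7 : ℝ) ≤ (S4.card : ℝ) + 1 := by
              have : 7 ≤ S4.card + 1 := by omega
              exact_mod_cast this
            push_cast at h
            rw [hLr] at h
            linarith
          have hx3 : x3 ≤ 1 / 3 := by
            by_contra hcon
            push Not at hcon
            have h := D_thr D (1 / 2) 0 (1 / 2) x3 (by norm_num) (by norm_num) (by norm_num)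
              (by norm_num) (by norm_num)
              (fun x hx y hy hxy => ⟨fun _ => by norm_num, fun _ => by norm_num⟩) (by norm_num)
              (Or.inl (by norm_num)) (Or.inr (by linarith)) (x3 ::ₘ S3) {x1, x2}
              (by rw [hSS]; simp only [← Multiset.singleton_add, Multiset.insert_eq_cons]; abel)
              (by
                intro x hx
                rcases Multiset.mem_cons.1 hx with h | h
                · exact h.ge
                · exact hm3 x h)
            simp only [Multiset.card_cons] at h
            have h5 : (8 : ℝ) ≤ (S3.card : ℝ) + 1 := by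
              have : 8 ≤ S3.card + 1 := by omega
              exact_mod_cast this
            push_cast at h
            rw [hLr] at h
            linarith
          have q1 : Packs {B1, x4} 1 := packs_one (by simp; linarith)
          have q2 : Packs {x1, x2, x3} 1 := packs_one (by simp; linarith)
          have q4 := packs_add (packs_add q1 q2) q3
          convert q4 using 1
          rw [hS44, hB]
          simp only [← Multiset.singleton_add, Multiset.insert_eq_cons]; abel
  · -- at least two big items
    obtain ⟨B1, L1, hL1e, hmB1⟩ := take_min L (by omega)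
    have hcL1 : L.card = L1.card + 1 := by rw [hL1e]; simp
    obtain ⟨B2, L2, hL2e, hmB2⟩ := take_min L1 (by omega)
    have hcL2 : L1.card = L2.card + 1 := by rw [hL2e]; simp
    have hLm := hbig3 B1 L1 hL1e hmB1
    have hf := hB1 B1 L1 hL1e hmB1 (Or.inr hL2)
    by_cases hb11 : S.card = 11 - 2 * L.card
    · have q1 : Packs {B1, x1} 1 := packs_one (by simp; linarith)
      have q0 := packs_single L1 (fun x hx => hL1 x (by rw [hL1e]; simp [hx]))
      have q2 : Packs S1 (5 - L.card) := packs_pairs (5 - L.card) S1
        (fun x hx => hS2 x (by rw [hS1]; simp [hx])) (by omega)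
      have q3 := packs_add (packs_add q1 q0) q2
      rw [show 1 + L1.card + (5 - L.card) = 5 by omega] at q3
      convert q3 using 1
      rw [hS1, hL1e]
      simp only [← Multiset.singleton_add, Multiset.insert_eq_cons]; abel
    · have hbe : S.card + 2 * L.card = 12 := by omega
      have hbr : (S.card : ℝ) + 2 * L.card = 12 := by exact_mod_cast hbe
      have hLr : (2 : ℝ) ≤ L.card := by exact_mod_cast hL2
      have hc1r : (S.card : ℝ) = S1.card + 1 := by exact_mod_cast hc1
      have g1 : B1 + x2 ≤ 1 := by
        by_contra hcon
        push Not at hcon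
        have h := D_thr D 1 0 (1 / 3) x2 (by norm_num) (by norm_num) (by norm_num)
          (by norm_num) (by norm_num)
          (fun x hx y hy hxy => by
            refine ⟨fun hty => ?_, fun _ => by norm_num⟩
            exfalso
            have := hLm x hx
            linarith) (by norm_num)
          (Or.inl (by norm_num)) (Or.inl (by norm_num)) S1 {x1}
          (by rw [hS1]; simp only [← Multiset.singleton_add]; abel)
          (by
            intro x hx
            rw [hS2'] at hx
            rcases Multiset.mem_cons.1 hx with h | h
            · exact h.ge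
            · exact hm2 x h)
        linarith
      have g2 : B2 + x1 ≤ 1 := by
        by_contra hcon
        push Not at hcon
        have h := D (fun x => if B2 ≤ x then 1 else 2 / 3) (fun _ => 1 / 3)
          (fun x => by split_ifs <;> norm_num) (fun x => by split_ifs <;> norm_num)
          (fun x => by norm_num) (fun x => by norm_num)
          (by
            intro x hx y hy hxy
            have := hSm1 y hy
            split_ifs with hh
            · exfalso; linarith
            · norm_num)
          (by intro x hx y hy z hz _ _ _; norm_num)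
        have l1 := lbsum L1 (fun x => if B2 ≤ x then 1 else 2 / 3) 1 (by
          intro x hx
          rw [if_pos]
          rw [hL2e] at hx
          rcases Multiset.mem_cons.1 hx with h | h
          · exact h.ge
          · exact hmB2 x h)
        have l2 : (2 / 3 : ℝ) ≤ (fun x : ℝ => if B2 ≤ x then (1 : ℝ) else 2 / 3) B1 := by
          dsimp only
          split_ifs <;> norm_num
        have l3 := lbsum S (fun _ => (1 / 3 : ℝ)) (1 / 3) (fun _ _ => le_rfl)
        rw [hL1e, Multiset.map_cons, Multiset.sum_cons] at h
        have l4 : (L.card : ℝ) = L1.card + 1 := by exact_mod_cast hcL1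
        linarith
      have q1 : Packs {B1, x2} 1 := packs_one (by simp; linarith)
      have q1' : Packs {B2, x1} 1 := packs_one (by simp; linarith)
      have q0 := packs_single L2 (fun x hx => hL1 x (by rw [hL1e, hL2e]; simp [hx]))
      have q2 : Packs S2' (5 - L.card) := packs_pairs (5 - L.card) S2'
        (fun x hx => hS2 x (by rw [hS1, hS2']; simp [hx])) (by omega)
      have q3 := packs_add (packs_add (packs_add q1 q1') q0) q2
      rw [show 1 + 1 + L2.card + (5 - L.card) = 5 by omega] at q3
      convert q3 using 1
      rw [hS1, hS2', hL1e, hL2e]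
      simp only [← Multiset.singleton_add, Multiset.insert_eq_cons]; abel

end Vale.Agent.P302
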