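import Mathlib

/-!
# P302M: bin packing with small configuration LP value, definitions
-/

namespace Vale.Agent.P302

/-- the items `M` can be packed into `k` bins (bins may be empty) -/
def Packs (M : Multiset ℝ) (k : ℕ) : Prop :=
  ∃ P : Multiset (Multiset ℝ), P.card = k ∧ P.join = M ∧ ∀ B ∈ P, B.sum ≤ 1

/-- the configuration LP of `M` has a feasible solution of value `v`; a configuration is a multiset
of sizes occurring in `M` (with any multiplicities) of total size at most `1` -/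
def IsLP (M : Multiset ℝ) (v : ℝ) : Prop :=
  ∃ (F : Finset (Multiset ℝ)) (z : Multiset ℝ → ℝ), (∀ c ∈ F, 0 ≤ z c) ∧
    (∀ c ∈ F, (∀ s ∈ c, s ∈ M) ∧ c.sum ≤ 1) ∧
    (∀ s ∈ M, (M.count s : ℝ) ≤ ∑ c ∈ F, z c * c.count s) ∧ ∑ c ∈ F, z c = v

end Vale.Agent.P302
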