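import Vale.Agent.Lib.P302M.Defs

/-!
# P302M Dual: dual weights, and the greedy reduction

`dual`: `∑ w = ∑ σ, count σ * w σ ≤ ∑ c, z c * (c.map w).sum ≤ v` (`Finset.sum_multiset_map_count`).
`dual_filter`: `dual` with the weight `if t < x then w x else 0` and `c.filter (t < ·)`.
-/

namespace Vale.Agent.P302

theorem dual {M : Multiset ℝ} {v : ℝ} (h : IsLP M v) (w : ℝ → ℝ) (hw : ∀ x, 0 ≤ w x)
    (hc : ∀ c : Multiset ℝ, (∀ s ∈ c, s ∈ M) → c.sum ≤ 1 → (c.map w).sum ≤ 1) :
    (M.map w).sum ≤ v := by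
  classical
  obtain ⟨F, z, hz, hF, hcov, hsum⟩ := h
  have h1 : ∀ c ∈ F, (c.map w).sum = ∑ σ ∈ M.toFinset, (c.count σ : ℝ) * w σ := by
    intro c hcF
    rw [Finset.sum_multiset_map_count]
    have h2 : c.toFinset ⊆ M.toFinset := by
      intro σ hσ
      rw [Multiset.mem_toFinset] at hσ ⊢
      exact (hF c hcF).1 σ hσ
    rw [Finset.sum_subset h2 (fun σ _ hσ => ?_)]
    · refine Finset.sum_congr rfl fun σ _ => ?_
      rw [nsmul_eq_mul]
    · rw [Multiset.mem_toFinset] at hσ
      rw [Multiset.count_eq_zero_of_notMem hσ, zero_smul]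
  rw [Finset.sum_multiset_map_count]
  calc ∑ σ ∈ M.toFinset, M.count σ • w σ
      ≤ ∑ σ ∈ M.toFinset, (∑ c ∈ F, z c * c.count σ) * w σ := by
        refine Finset.sum_le_sum fun σ hσ => ?_
        rw [nsmul_eq_mul]
        rw [Multiset.mem_toFinset] at hσ
        exact mul_le_mul_of_nonneg_right (hcov σ hσ) (hw σ)
    _ = ∑ c ∈ F, z c * (c.map w).sum := by
        simp_rw [Finset.sum_mul]
        rw [Finset.sum_comm]
        refine Finset.sum_congr rfl fun c hcF => ?_
        rw [h1 c hcF, Finset.mul_sum]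
        refine Finset.sum_congr rfl fun σ _ => ?_
        ring
    _ ≤ ∑ c ∈ F, z c * 1 := by
        refine Finset.sum_le_sum fun c hcF => ?_
        exact mul_le_mul_of_nonneg_left (hc c (hF c hcF).1 (hF c hcF).2) (hz c hcF)
    _ = v := by
        simp only [mul_one]
        exact hsum

private theorem filter_sum (w : ℝ → ℝ) (t : ℝ) (M : Multiset ℝ) :
    (M.map fun x => if t < x then w x else 0).sum = ((M.filter (t < ·)).map w).sum := by
  induction M using Multiset.induction_on with
  | empty => simp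
  | cons a M ih =>
    rw [Multiset.map_cons, Multiset.sum_cons, ih]
    by_cases h : t < a
    · rw [if_pos h, Multiset.filter_cons_of_pos M h, Multiset.map_cons, Multiset.sum_cons]
    · rw [if_neg h, Multiset.filter_cons_of_neg M h, zero_add]

private theorem filter_le (t : ℝ) (c : Multiset ℝ) (hc : ∀ s ∈ c, 0 < s) :
    (c.filter (t < ·)).sum ≤ c.sum := by
  induction c using Multiset.induction_on with
  | empty => simp
  | cons a M ih =>
    have h1 := ih fun s hs => hc s (Multiset.mem_cons_of_mem hs)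
    have h2 := hc a (Multiset.mem_cons_self a M)
    by_cases h : t < a
    · rw [Multiset.filter_cons_of_pos M h, Multiset.sum_cons, Multiset.sum_cons]
      linarith
    · rw [Multiset.filter_cons_of_neg M h, Multiset.sum_cons]
      linarith

theorem dual_filter {M : Multiset ℝ} {v : ℝ} (h : IsLP M v) (hM : ∀ x ∈ M, 0 < x) (t : ℝ)
    (w : ℝ → ℝ) (hw : ∀ x, 0 ≤ w x)
    (hc : ∀ c : Multiset ℝ, (∀ s ∈ c, s ∈ M ∧ t < s) → c.sum ≤ 1 → (c.map w).sum ≤ 1) :
    ((M.filter (t < ·)).map w).sum ≤ v := by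
  classical
  rw [← filter_sum]
  refine dual h _ (fun x => ?_) fun c hcM hc1 => ?_
  · split_ifs
    · exact hw x
    · exact le_rfl
  · rw [filter_sum]
    refine hc _ (fun s hs => ?_) ?_
    · rw [Multiset.mem_filter] at hs
      exact ⟨hcM s hs.1, hs.2⟩
    · exact (filter_le t c fun s hs => hM s (hcM s hs)).trans hc1

end Vale.Agent.P302
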