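import Vale.Agent.Lib.P302M.Defs

/-!
# P302M Greedy: adding the small items

Induction on the multiset `S` of small items (`Multiset.induction`): if `s ≤ 1/k` fits in no bin of a packing of `N` into
`k+1` bins, then all loads are `> 1 - s`, so `N.sum > (k+1)(1-s)` and `N.sum + s > k + 1 - k s ≥ k`.
-/

namespace Vale.Agent.P302

private theorem add_one (k : ℕ) (hk : 1 ≤ k) (M : Multiset ℝ) (s : ℝ) (hs : s ≤ 1 / (k : ℝ))
    (hM : Packs M (k + 1)) (hsum : M.sum + s ≤ k) : Packs (s ::ₘ M) (k + 1) := by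
  classical
  obtain ⟨P, hc, hj, hP⟩ := hM
  have hk0 : (0 : ℝ) < k := by exact_mod_cast hk
  have hks : k * s ≤ 1 := by
    rw [le_div_iff₀ hk0] at hs
    linarith
  by_cases h : ∃ B ∈ P, s + B.sum ≤ 1
  · obtain ⟨B, hB, hs1⟩ := h
    obtain ⟨Q, hQ⟩ := Multiset.exists_cons_of_mem hB
    refine ⟨(s ::ₘ B) ::ₘ Q, ?_, ?_, ?_⟩
    · rw [← hc, hQ, Multiset.card_cons, Multiset.card_cons]
    · rw [← hj, hQ, Multiset.join_cons, Multiset.join_cons, Multiset.cons_add]
    · intro C hC
      rcases Multiset.mem_cons.1 hC with rfl | hC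
      · rwa [Multiset.sum_cons]
      · exact hP C (by rw [hQ]; exact Multiset.mem_cons_of_mem hC)
  · exfalso
    push Not at h
    obtain ⟨B, hB⟩ : ∃ B, B ∈ P := by
      apply Multiset.card_pos_iff_exists_mem.1
      omega
    obtain ⟨Q, hQ⟩ := Multiset.exists_cons_of_mem hB
    have h1 : (P.map Multiset.sum).sum = M.sum := by
      rw [← hj, Multiset.sum_join]
    have hQc : Q.card = k := by
      have := hc
      rw [hQ, Multiset.card_cons] at this
      omega
    have h2 : (Q.card : ℝ) * (1 - s) ≤ (Q.map Multiset.sum).sum := by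
      have h3 := Multiset.card_nsmul_le_sum (s := Q.map Multiset.sum) (a := 1 - s) (fun x hx => by
        obtain ⟨C, hC, rfl⟩ := Multiset.mem_map.1 hx
        have := h C (by rw [hQ]; exact Multiset.mem_cons_of_mem hC)
        linarith)
      rw [Multiset.card_map, nsmul_eq_mul] at h3
      exact h3
    have h4 := h B hB
    rw [hQ, Multiset.map_cons, Multiset.sum_cons] at h1
    rw [hQc] at h2
    nlinarith

theorem greedy (k : ℕ) (hk : 1 ≤ k) (N S : Multiset ℝ) (hS : ∀ x ∈ S, 0 < x ∧ x ≤ 1 / (k : ℝ))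
    (hN : Packs N (k + 1)) (hsum : (N + S).sum ≤ k) : Packs (N + S) (k + 1) := by
  induction S using Multiset.induction with
  | empty => simpa using hN
  | cons s S ih =>
    have hs := hS s (Multiset.mem_cons_self s S)
    rw [Multiset.add_cons, Multiset.sum_cons] at hsum
    rw [Multiset.add_cons]
    refine add_one k hk _ s hs.2 (ih (fun x hx => hS x (Multiset.mem_cons_of_mem hx)) ?_) ?_
    · linarith [hs.1]
    · linarith

end Vale.Agent.P302
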