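import Vale.Agent.Lib.P302M.Defs

/-!
# P302M Pack: elementary packings
-/

namespace Vale.Agent.P302

theorem packs_add {M N : Multiset ℝ} {k l : ℕ} (h1 : Packs M k) (h2 : Packs N l) :
    Packs (M + N) (k + l) := by
  obtain ⟨P, hP1, hP2, hP3⟩ := h1
  obtain ⟨R, hR1, hR2, hR3⟩ := h2
  refine ⟨P + R, by rw [Multiset.card_add, hP1, hR1], by rw [Multiset.join_add, hP2, hR2], ?_⟩
  intro B hB
  rcases Multiset.mem_add.1 hB with h | h
  · exact hP3 B h
  · exact hR3 B h

theorem packs_one {M : Multiset ℝ} (h : M.sum ≤ 1) : Packs M 1 := by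
  refine ⟨{M}, Multiset.card_singleton _, by simp [Multiset.join], fun B hB => ?_⟩
  rw [Multiset.mem_singleton.1 hB]
  exact h

private theorem packs_zero : Packs 0 0 := ⟨0, rfl, rfl, fun B hB => absurd hB (Multiset.notMem_zero B)⟩

theorem packs_mono {M : Multiset ℝ} {k l : ℕ} (hkl : k ≤ l) (h : Packs M k) : Packs M l := by
  induction l, hkl using Nat.le_induction with
  | base => exact h
  | succ l _ ih =>
    have h1 : Packs (0 : Multiset ℝ) 1 := packs_one (by rw [Multiset.sum_zero]; norm_num)
    have h2 := packs_add ih h1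
    rwa [add_zero] at h2

theorem packs_single (M : Multiset ℝ) (h : ∀ x ∈ M, x ≤ 1) : Packs M M.card := by
  induction M using Multiset.induction_on with
  | empty => exact packs_zero
  | cons a M ih =>
    have h1 : Packs {a} 1 := packs_one (by
      rw [Multiset.sum_singleton]
      exact h a (Multiset.mem_cons_self a M))
    have h2 := packs_add (ih fun x hx => h x (Multiset.mem_cons_of_mem hx)) h1
    rw [add_comm M {a}, Multiset.singleton_add] at h2
    rwa [Multiset.card_cons]

theorem take_one (S : Multiset ℝ) (h : 1 ≤ S.card) : ∃ x S', S = x ::ₘ S' := by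
  obtain ⟨x, hx⟩ := Multiset.card_pos_iff_exists_mem.1 h
  obtain ⟨S', hS'⟩ := Multiset.exists_cons_of_mem hx
  exact ⟨x, S', hS'⟩

theorem packs_pairs (k : ℕ) : ∀ S : Multiset ℝ, (∀ x ∈ S, x ≤ 1 / 2) → S.card ≤ 2 * k →
    Packs S k := by
  induction k with
  | zero =>
    intro S _ hS
    have h0 : S = 0 := Multiset.card_eq_zero.1 (by omega)
    rw [h0]
    exact packs_zero
  | succ k ih =>
    intro S hx hS
    by_cases h1 : S.card ≤ 1
    · by_cases h0 : S.card = 0
      · rw [Multiset.card_eq_zero.1 h0]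
        exact packs_mono (Nat.zero_le _) packs_zero
      · have h2 : S.card = 1 := by omega
        have h3 := packs_single S fun x h => (hx x h).trans (by norm_num)
        rw [h2] at h3
        exact packs_mono (by omega) h3
    · obtain ⟨a, S1, rfl⟩ := take_one S (by omega)
      rw [Multiset.card_cons] at hS h1
      obtain ⟨b, S2, rfl⟩ := take_one S1 (by omega)
      rw [Multiset.card_cons] at hS
      have ha := hx a (Multiset.mem_cons_self _ _)
      have hb := hx b (Multiset.mem_cons_of_mem (Multiset.mem_cons_self _ _))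
      have h2 := ih S2 (fun x h => hx x (Multiset.mem_cons_of_mem (Multiset.mem_cons_of_mem h)))
        (by omega)
      have h3 : Packs (a ::ₘ {b}) 1 := packs_one (by
        rw [Multiset.sum_cons, Multiset.sum_singleton]
        linarith)
      have h4 := packs_add h2 h3
      have e : S2 + a ::ₘ {b} = a ::ₘ b ::ₘ S2 := by
        rw [Multiset.add_cons, add_comm, Multiset.singleton_add]
      rwa [e] at h4

theorem take_min (S : Multiset ℝ) (h : 1 ≤ S.card) : ∃ x S', S = x ::ₘ S' ∧ ∀ y ∈ S', x ≤ y := by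
  classical
  have hne : S.toFinset.Nonempty := by
    obtain ⟨x, hx⟩ := Multiset.card_pos_iff_exists_mem.1 h
    exact ⟨x, Multiset.mem_toFinset.2 hx⟩
  obtain ⟨x, hx, hmin⟩ := S.toFinset.exists_min_image id hne
  obtain ⟨S', rfl⟩ := Multiset.exists_cons_of_mem (Multiset.mem_toFinset.1 hx)
  exact ⟨x, S', rfl, fun y hy => hmin y (Multiset.mem_toFinset.2 (Multiset.mem_cons_of_mem hy))⟩

/-- configurations of items larger than `1/4` have at most three items -/
theorem cfg4 (c : Multiset ℝ) (h : ∀ x ∈ c, 1 / 4 < x) (hs : c.sum ≤ 1) :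
    c = 0 ∨ (∃ x, c = {x}) ∨ (∃ x y, c = {x, y}) ∨ ∃ x y z, c = {x, y, z} := by
  by_cases h0 : c.card = 0
  · exact Or.inl (Multiset.card_eq_zero.1 h0)
  right
  by_cases h1 : c.card = 1
  · exact Or.inl (Multiset.card_eq_one.1 h1)
  right
  by_cases h2 : c.card = 2
  · exact Or.inl (Multiset.card_eq_two.1 h2)
  right
  by_cases h3 : c.card = 3
  · exact Multiset.card_eq_three.1 h3
  exfalso
  obtain ⟨a, c1, rfl⟩ := take_one c (by omega)
  rw [Multiset.card_cons] at h0 h1 h2 h3
  obtain ⟨b, c2, rfl⟩ := take_one c1 (by omega)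
  rw [Multiset.card_cons] at h0 h1 h2 h3
  obtain ⟨d, c3, rfl⟩ := take_one c2 (by omega)
  rw [Multiset.card_cons] at h0 h1 h2 h3
  obtain ⟨e, c4, rfl⟩ := take_one c3 (by omega)
  have ha := h a (by simp)
  have hb := h b (by simp)
  have hd := h d (by simp)
  have he := h e (by simp)
  have hc4 : 0 ≤ c4.sum := Multiset.sum_nonneg fun x hx => by
    have := h x (by simp [hx])
    linarith
  simp only [Multiset.sum_cons] at hs
  linarith

end Vale.Agent.P302
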